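import Vale.Agent.P286E99.DT
import Vale.Agent.P286E48.Wa

/-!
# The weighted algebras `D(𝔸¹)[ε] ⋊ W` and `ℂ`
-/

set_option linter.all false

namespace Vale.Agent.P286E99

open Vale.Agent.P286EK Vale.Agent.P286E48
open Vale.Agent.P286EX (Ivl E4 Ext4)

noncomputable section

theorem sup_mul {R : Type} [Ring R] [Algebra ℂ R] {E x y : R} (hx : x ∈ ⨆ k, wt E k)
    (hy : y ∈ ⨆ k, wt E k) : x * y ∈ ⨆ k, wt E k := by
  induction hx using Submodule.iSup_induction' with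
  | zero => rw [zero_mul]; exact zero_mem _
  | add a b _ _ ha hb => rw [add_mul]; exact add_mem ha hb
  | mem k a ha =>
    induction hy using Submodule.iSup_induction' with
    | zero => rw [mul_zero]; exact zero_mem _
    | add a b _ _ ha hb => rw [mul_add]; exact add_mem ha hb
    | mem l b hb => exact Submodule.mem_iSup_of_mem (k + l) (wt_mul ha hb)

/-- The shifted Euler field. -/
def Dt.E : Dt := Dt.t * Dt.d - 1

theorem w0_E : w0.f Dt.E = Dt.E := by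
  rw [Dt.E, map_sub, map_mul, w0_t, w0_d, neg_mul_neg, map_one]

theorem Dt.t_wt : Dt.t ∈ wt Dt.E 1 := by
  rw [mem_wt, Dt.E, sub_mul, mul_assoc, Dt.d_t, Int.cast_one, one_smul]
  noncomm_ring

theorem Dt.d_wt : Dt.d ∈ wt Dt.E (-1) := by
  rw [mem_wt, Dt.E, mul_sub, ← mul_assoc, Dt.d_t, Int.cast_neg, Int.cast_one, neg_smul, one_smul]
  noncomm_ring

theorem Dt.q_wt : Dt.t * Dt.t ∈ wt Dt.E 2 := by
  have h := wt_mul Dt.t_wt Dt.t_wt
  rwa [show (1 + 1 : ℤ) = 2 from rfl] at h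

theorem io_wt {k : ℤ} {x : Dt} (h : x ∈ wt Dt.E k) : E4.io w0 x ∈ wt (E4.io w0 Dt.E) k :=
  wt_map (E4.io w0).toLinearMap (fun a => by
    simp only [AlgHom.toLinearMap_apply, map_sub, map_mul]) h

theorem w_wt : E4.w w0 ∈ wt (E4.io w0 Dt.E) 0 := by
  rw [mem_wt, E4.w_io, w0_E, sub_self, Int.cast_zero, zero_smul]

theorem ep_wt : E4.ep w0 ∈ wt (E4.io w0 Dt.E) 0 := by
  rw [mem_wt, E4.ep_io, sub_self, Int.cast_zero, zero_smul]

theorem sup0 : ⨆ k, wt (E4.io w0 Dt.E) k = ⊤ := eq_top_iff.2 fun x _ => by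
  refine E4.ind (P := fun x => x ∈ ⨆ k, wt (E4.io w0 Dt.E) k) (fun x => ?_)
    (Submodule.mem_iSup_of_mem 0 w_wt) (Submodule.mem_iSup_of_mem 0 ep_wt) (fun _ _ => add_mem)
    (fun _ _ => sup_mul) x
  refine Dt.ind (P := fun x => E4.io w0 x ∈ ⨆ k, wt (E4.io w0 Dt.E) k) (fun c => ?_)
    (Submodule.mem_iSup_of_mem 1 (io_wt Dt.t_wt)) (Submodule.mem_iSup_of_mem (-1) (io_wt Dt.d_wt))
    (fun a b ha hb => by rw [map_add]; exact add_mem ha hb)
    (fun a b ha hb => by rw [map_mul]; exact sup_mul ha hb) x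
  rw [AlgHom.commutes, Algebra.algebraMap_eq_smul_one]
  exact Submodule.smul_mem _ c (Submodule.mem_iSup_of_mem 0 (wt_one _))

/-- The weighted algebra `D(𝔸¹)[ε] ⋊ W`. -/
def B0 : WA where
  A := Ext4 w0
  E := E4.io w0 Dt.E
  q := E4.io w0 (Dt.t * Dt.t)
  E_gr := E4.io_mem _
  dE := rfl
  q_gr := E4.io_mem _
  dq := rfl
  q_wt := io_wt Dt.q_wt
  sup := sup0

theorem B0_A : B0.A = Ext4 w0 := rfl

theorem B0_E : B0.E = E4.io w0 (Dt.t * Dt.d - 1) := rfl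

theorem B0_q : B0.q = E4.io w0 (Dt.t * Dt.t) := rfl

theorem B0_t : E4.io w0 Dt.t ∈ wt B0.E 1 := io_wt Dt.t_wt

theorem B0_d : E4.io w0 Dt.d ∈ wt B0.E (-1) := io_wt Dt.d_wt

theorem B0_w : E4.w w0 ∈ wt B0.E 0 := w_wt

theorem B0_ep : E4.ep w0 ∈ wt B0.E 0 := ep_wt

theorem c_wt (e z : ℂ) : z ∈ wt e 0 := by
  rw [mem_wt, mul_comm, sub_self, Int.cast_zero, zero_smul]

/-- The weighted algebra `ℂ` with `E = e`, `q = 0`. -/
def C0 (e : ℂ) : WA where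
  A := DGA.ofAlg ℂ
  E := e
  q := (0 : ℂ)
  E_gr := ofAlg_mem (E := ℂ) _
  dE := rfl
  q_gr := ofAlg_mem (E := ℂ) _
  dq := rfl
  q_wt := (wt e 2).zero_mem
  sup := eq_top_iff.2 fun x _ => Submodule.mem_iSup_of_mem 0 (c_wt e x)

theorem C0_A (e : ℂ) : (C0 e).A = DGA.ofAlg ℂ := rfl

theorem C0_E (e : ℂ) : (C0 e).E = e := rfl

theorem C0_q (e : ℂ) : (C0 e).q = (0 : ℂ) := rfl

end

end Vale.Agent.P286E99
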