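import Vale.Agent.P286E99.Iso
import Vale.Agent.P286E48.Ch

/-!
# The chart algebras of `D(𝔸¹)[ε] ⋊ W` and of `ℂ`
-/

set_option linter.all false

namespace Vale.Agent.P286E99

open CategoryTheory TensorProduct Vale.Agent.P286E Vale.Agent.P286EK Vale.Agent.P286EU
  Vale.Agent.P286.H847
open Vale.Agent.P286E48 (ta tp fz fo pp ci Ch chT chB twB ta_fz ta_pp ta_one wt)
open Vale.Agent.P286EI (DW)
open Vale.Agent.P286EX (Ivl E4 Ext4 XD)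

noncomputable section

variable {I : Type} [SmallCategory I] {D : CD I} (V : VF D) (lam : ℂ)

/-- The transition map. -/
def tb {i j : I} (α : i ⟶ j) : TB (V.pd i) →ₐ[ℂ] TB (V.pd j) := ta V lam B0 α

theorem tb_j {i j : I} (α : i ⟶ j) (z : D.C i) :
    tb V lam α (iL _ (j9 _ z)) = iL _ (j9 _ (D.κ α z)) := ta_fz V lam B0 α z

theorem tb_p {i j : I} (α : i ⟶ j) : tb V lam α (iL _ (p9 _)) = iL _ (j9 _ (cu D α)⁻¹.1) *
    (iL _ (p9 _) - j9 _ (V.lc α) ⊗ₜ[ℂ] E4.io w0 (Dt.t * Dt.d - 1) + iL _ (j9 _ (lam • V.lr α))) :=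
  ta_pp V lam B0 α

theorem tb_R {i j : I} (α : i ⟶ j) {k : ℤ} {a : E4 w0} (h : a ∈ wt B0.E k) :
    tb V lam α (iR _ a) = j9 _ (cu D α ^ k).1 ⊗ₜ[ℂ] a := ta_one V lam B0 α h

theorem iL_iR {B : Type} [CommRing B] [Algebra ℂ B] (pd : Derivation ℂ B B) (x : D9 pd)
    (y : E4 w0) : x ⊗ₜ[ℂ] y = iL pd x * iR pd y := by
  simp [Algebra.TensorProduct.tmul_mul_tmul]

/-- The transition map. -/
def tt {i j : I} (α : i ⟶ j) : E4 (wv (V.pd i)) →ₐ[ℂ] E4 (wv (V.pd j)) :=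
  ((DT (cq V lam 1)).τ α).f

theorem tt_io {i j : I} (α : i ⟶ j) (x : D2 (V.pd i)) :
    tt V lam α (E4.io _ x) = E4.io _ (((cq V lam 1).t α).m2 x) := DT_io _ α x

theorem tb_Ψ {i j : I} (α : i ⟶ j) (x : E4 (wv (V.pd i))) :
    tb V lam α (Ψ _ x) = Ψ _ (tt V lam α x) :=
  AlgHom.congr_fun (e4_ext _ (φ := (tb V lam α).comp (Ψ _)) (ψ := (Ψ _).comp (tt V lam α))
    (fun z => by
      rw [AlgHom.comp_apply, AlgHom.comp_apply, tt_io, T1.m2_cf, Ψ_io, Ψ_io, ψ0_cf, ψ0_cf, tb_j]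
      rfl)
    (by
      rw [AlgHom.comp_apply, AlgHom.comp_apply, tt_io, T1.m2_y, Ψ_io, Ψ_io, map_mul, ψ0_y, ψ0_y,
        ψ0_cf, tb_R V lam α B0_t, iL_iR, zpow_one]
      rfl)
    (by
      rw [AlgHom.comp_apply, AlgHom.comp_apply, tt_io, T1.m2_d, Ψ_io, Ψ_io, map_mul, ψ0_d, ψ0_d,
        ψ0_cf, tb_R V lam α B0_d, iL_iR, zpow_neg_one]
      rfl)
    (by
      rw [AlgHom.comp_apply, AlgHom.comp_apply, tt_io, T1.m2_du, Ψ_io, Ψ_io, ψ0_du, tb_p, iL_iR,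
        Eu_eq]
      simp only [Coc.t, lg_cu, cq_l, one_smul, map_mul, map_add, map_sub, map_one, ψ0_cf, ψ0_du,
        ψ0_y, ψ0_d, mul_sub (iL _ (j9 _ (V.lc α))), mul_one]
      congr 1
      abel)
    (by
      rw [AlgHom.comp_apply, AlgHom.comp_apply, Ψ_w, tb_R V lam α B0_w, zpow_zero, Units.val_one,
        map_one]
      exact ((congrArg (Ψ _) (DT_w _ α)).trans (Ψ_w _)).symm)
    (by
      rw [AlgHom.comp_apply, AlgHom.comp_apply, Ψ_ep, tb_R V lam α B0_ep, zpow_zero, Units.val_one,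
        map_one]
      exact ((congrArg (Ψ _) (DT_ep _ α)).trans (Ψ_ep _)).symm)) x

/-- The isomorphism of diagrams. -/
def dtH : DHom (DT (cq V lam 1)) (Ch V lam B0) := ⟨fun i => (ΨH (V.pd i)).n, tb_Ψ V lam⟩

theorem Ψ_cT (i : I) (z : D.C i) : Ψ _ (cT V i z) = fz V B0 i z :=
  (Ψ_io _ _).trans (ψ0_cf _ z)

theorem Ψ_FT (i : I) : Ψ _ (E4.io _ (FT V i)) =
    iR _ (E4.io w0 (Dt.t * Dt.t)) - iL _ (j9 _ (D.f i)) := by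
  rw [Ψ_io, FT, map_sub, sq, map_mul, ψ0_y, ψ0_cf, map_mul, map_mul]

/-- The row DTB. -/
theorem dtb (xd : XD D) (lam : ℂ) :
    EQV (wc (twB lam B0 xd)) (wc (bT (cq xd.vfd lam 1) xd.sm)) :=
  EQV.symm ((dtH xd.vfd lam).eqc1_tw (b := baseT _ xd.sm) (b' := chB lam B0 xd) (tdT _)
    (chT xd.vfd lam B0) (fun i => map_one (Ψ (xd.pd i))) (fun i => qis_Ψ _) (Ψ_cT xd.vfd)
    (Ψ_FT xd.vfd) (fun {_ j} α => Ψ_cT xd.vfd j _) _ _ _ _)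

/-! ### Dimension one -/

variable (e : ℂ)

/-- The transition map. -/
def tc {i j : I} (α : i ⟶ j) : D9 (V.pd i) ⊗[ℂ] ℂ →ₐ[ℂ] D9 (V.pd j) ⊗[ℂ] ℂ := ta V lam (C0 e) α

theorem tc_j {i j : I} (α : i ⟶ j) (z : D.C i) :
    tc V lam e α (j9 _ z ⊗ₜ[ℂ] 1) = j9 _ (D.κ α z) ⊗ₜ[ℂ] 1 := ta_fz V lam (C0 e) α z

theorem tc_p {i j : I} (α : i ⟶ j) : tc V lam e α (p9 _ ⊗ₜ[ℂ] 1) = j9 _ (cu D α)⁻¹.1 ⊗ₜ[ℂ] 1 *
    (p9 _ ⊗ₜ[ℂ] 1 - j9 _ (V.lc α) ⊗ₜ[ℂ] e + j9 _ (lam • V.lr α) ⊗ₜ[ℂ] 1) :=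
  ta_pp V lam (C0 e) α

theorem tc_u {i j : I} (α : i ⟶ j) (x : D1 (V.pd i)) :
    tc V lam e α (u0 (χ _) x) = u0 (χ _) (((cq V lam (-e)).t α).m1 x) :=
  AlgHom.congr_fun (ext1 (φ := (tc V lam e α).comp (u0 (χ _)))
    (ψ := (u0 (χ _)).comp ((cq V lam (-e)).t α).m1)
    (fun z => by
      rw [AlgHom.comp_apply, AlgHom.comp_apply, T1.m1_j, u0_apply, u0_apply, χ_j, χ_j, tc_j]
      rfl)
    (by
      have h : j9 (V.pd j) (V.lc α) ⊗ₜ[ℂ] e = (e • j9 (V.pd j) (V.lc α)) ⊗ₜ[ℂ] (1 : ℂ) := by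
        rw [smul_tmul, smul_eq_mul, mul_one]
      rw [AlgHom.comp_apply, AlgHom.comp_apply, T1.m1_p, map_mul, map_add, u0_apply, u0_apply,
        u0_apply, u0_apply, χ_j, χ_j, χ_p, χ_p, tc_p, h]
      simp only [Coc.t, cq_l, map_add, neg_smul, map_neg, map_smul, add_tmul, neg_tmul]
      congr 1
      abel)) x

/-- The isomorphism of diagrams. -/
def dcH : DHom (DC1 (cq V lam (-e))) (Ch V lam (C0 e)) :=
  ⟨fun i => (uH (χ (V.pd i))).n, tc_u V lam e⟩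

theorem u_c1 (i : I) (z : D.C i) : u0 (χ _) (c1 V i z) = fz V (C0 e) i z :=
  congrArg (· ⊗ₜ[ℂ] (1 : ℂ)) (χ_j _ z)

theorem u_F (i : I) : u0 (χ _) (c1 V i (-D.f i)) =
    (1 : D9 (V.pd i)) ⊗ₜ[ℂ] (0 : ℂ) - j9 _ (D.f i) ⊗ₜ[ℂ] 1 := by
  rw [tmul_zero, zero_sub, map_neg, map_neg]
  exact congrArg (fun x => -(x ⊗ₜ[ℂ] (1 : ℂ))) (χ_j _ _)

/-- The row DTB in dimension one. -/
theorem dtc (xd : XD D) (lam e : ℂ) :
    EQV (wc (twB lam (C0 e) xd)) (wc (b1 (cq xd.vfd lam (-e)) xd.sm)) :=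
  EQV.symm ((dcH xd.vfd lam e).eqc1_tw (b := base1 _ xd.sm) (b' := chB lam (C0 e) xd) (td1 _)
    (chT xd.vfd lam (C0 e)) (fun i => map_one (u0 (χ (xd.pd i))))
    (fun i => qis_uH _ ⟨Function.LeftInverse.injective (χ'_χ _),
      Function.RightInverse.surjective (χ_χ' _)⟩) (u_c1 xd.vfd e)
    (u_F xd.vfd) (fun {_ j} α => u_c1 xd.vfd e j _) _ _ _ _)

end

end Vale.Agent.P286E99
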