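import Vale.Agent.P286EI.Wey
import Vale.Agent.P286EX10.Ext
import Vale.Agent.P286EK.Tw
import Vale.Agent.P286EA2.Rd

/-!
# The diagrams of rings of differential operators on `C × 𝔸¹` and on `C`
-/

set_option linter.all false

namespace Vale.Agent.P286E99

open CategoryTheory MvPolynomial Vale.Agent.P286E Vale.Agent.P286EK Vale.Agent.P286EU
open Vale.Agent.P286EI (DW)
open Vale.Agent.P286EX (Ivl E4 Ext4 DOp DO XD)

noncomputable section

section Alg

variable {κ R B B' E : Type} [CommRing R] [Algebra ℂ R] [CommRing B] [Algebra ℂ B] [CommRing B']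
  [Algebra ℂ B'] [Ring E] [Algebra ℂ E]

/-- The generators and relations. -/
def dop (δ : κ → Derivation ℂ R R) : DOp R (P286EI.DO δ) κ where
  j := P286EI.DO.of δ
  p := P286EI.DO.D δ
  δ := δ
  pj := P286EI.DO.D_of
  pp := P286EI.DO.D_D
  gen := eq_top_iff.2 fun x _ => P286EI.DO.ind
    (fun r => Algebra.subset_adjoin (Or.inl ⟨r, rfl⟩))
    (fun i => Algebra.subset_adjoin (Or.inr ⟨i, rfl⟩)) (fun _ _ => add_mem) (fun _ _ => mul_mem) x

theorem dop_j (δ : κ → Derivation ℂ R R) (r : R) : (dop δ).j r = P286EI.DO.of δ r := rfl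

theorem dop_p (δ : κ → Derivation ℂ R R) (k : κ) : (dop δ).p k = P286EI.DO.D δ k := rfl

theorem dop_δ (δ : κ → Derivation ℂ R R) : (dop δ).δ = δ := rfl

theorem dop_inj {δ : κ → Derivation ℂ R R} (h : P286EI.DO.Cm δ) :
    Function.Injective (dop δ).nf := by
  let ψ : P286EI.DO δ →ₐ[ℂ] P286EX.DO δ :=
    P286EI.DO.lift (P286EX.DO.j δ) (P286EX.DO.p δ) (P286EX.DO.pp δ) (P286EX.DO.pj δ)
  have e1 : ∀ α, ψ ((dop δ).mon α) = (P286EX.DO.op δ).mon α := fun α => by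
    induction α using Finsupp.induction with
    | zero => rw [DOp.mon_zero, DOp.mon_zero, map_one]
    | single_add i n β _ _ ih =>
      rw [DOp.mon_add, DOp.mon_add, DOp.mon_single, DOp.mon_single, map_mul, map_pow, ih, dop_p,
        P286EI.DO.lift_D]
      rfl
  have e : ∀ v, ψ ((dop δ).nf v) = (P286EX.DO.op δ).nf v := fun v => by
    induction v using Finsupp.induction_linear with
    | zero => rw [map_zero, map_zero, map_zero]
    | add x y hx hy => rw [map_add, map_add, map_add, hx, hy]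
    | single α r =>
      rw [DOp.nf_single, DOp.nf_single, map_mul, e1, dop_j, P286EI.DO.lift_of]
      rfl
  exact fun v w hvw => (P286EX.DO.pbw h).1 (by rw [← e, ← e, hvw])

/-- The differential operators on a curve. -/
abbrev D1 (pd : Derivation ℂ B B) : Type := DO fun _ : Unit => pd

/-- The differential operators on the product of a curve with a line. -/
abbrev D2 (pd : Derivation ℂ B B) : Type := DW Unit pd

theorem relw (pd : Derivation ℂ B B) : DW.Rel pd (DW.cf Unit pd) (fun a : Unit => -DW.y pd a)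
    (fun a : Unit => -DW.d pd a) (DW.du Unit pd) :=
  ⟨fun _ _ => rfl, fun a z => by rw [neg_mul, mul_neg, DW.y_cf], fun _ _ => rfl,
    fun a z => by rw [neg_mul, mul_neg, DW.d_cf],
    fun a b => by rw [neg_mul_neg, neg_mul_neg, DW.d_y], DW.du_cf,
    fun a => by rw [neg_mul, mul_neg, DW.du_y], fun a => by rw [neg_mul, mul_neg, DW.du_d]⟩

/-- The involution `t ↦ -t`. -/
def wv (pd : Derivation ℂ B B) : Ivl (D2 pd) where
  f := DW.lift (relw pd)
  ff := AlgHom.congr_fun (DW.hom_ext (φ := (DW.lift (relw pd)).comp (DW.lift (relw pd)))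
    (ψ := AlgHom.id ℂ _) (fun z => by simp [DW.lift_cf])
    (fun a => by simp [DW.lift_y]) (fun a => by simp [DW.lift_d]) (by simp [DW.lift_du]))

variable {pd : Derivation ℂ B B} {pd' : Derivation ℂ B' B'}

theorem wv_cf (z : B) : (wv pd).f (DW.cf Unit pd z) = DW.cf Unit pd z :=
  DW.lift_cf (relw pd) z

theorem wv_y (a : Unit) : (wv pd).f (DW.y pd a) = -DW.y pd a := DW.lift_y (relw pd) a

theorem wv_d (a : Unit) : (wv pd).f (DW.d pd a) = -DW.d pd a := DW.lift_d (relw pd) a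

theorem wv_du : (wv pd).f (DW.du Unit pd) = DW.du Unit pd := DW.lift_du (relw pd)

theorem Eu_eq : DW.Eu Unit pd = DW.y pd () * DW.d pd () := Fintype.sum_unique _

theorem wv_Eu : (wv pd).f (DW.Eu Unit pd) = DW.Eu Unit pd := by
  rw [Eu_eq, map_mul, wv_y, wv_d, neg_mul_neg]

/-- A change of the coordinate on the curve, with a twist. -/
structure T1 (pd : Derivation ℂ B B) (pd' : Derivation ℂ B' B') where
  κ : B →ₐ[ℂ] B'
  c : B'ˣ
  l : B'
  hκ : ∀ z, pd' (κ z) = c * κ (pd z)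

/-- The change of coordinates on the product. -/
def T1.tr (t : T1 pd pd') : DW.Tr Unit pd pd' where
  κ := t.κ
  c := t.c
  g := 1
  l := t.l
  hκ := t.hκ
  og := by simp
  pg _ _ := Derivation.map_one_eq_zero _

/-- The map of the rings of differential operators. -/
def T1.m2 (t : T1 pd pd') : D2 pd →ₐ[ℂ] D2 pd' := DW.map t.tr

theorem T1.m2_cf (t : T1 pd pd') (z : B) : t.m2 (DW.cf Unit pd z) = DW.cf Unit pd' (t.κ z) :=
  DW.map_cf _ z

theorem T1.m2_y (t : T1 pd pd') (a : Unit) :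
    t.m2 (DW.y pd a) = DW.cf Unit pd' t.c * DW.y pd' a :=
  (DW.map_y _ a).trans (congrArg (_ * ·) (DW.lc_one _ a))

theorem T1.m2_d (t : T1 pd pd') (a : Unit) :
    t.m2 (DW.d pd a) = DW.cf Unit pd' (t.c⁻¹ : B'ˣ) * DW.d pd' a :=
  (DW.map_d _ a).trans (congrArg (_ * ·) (DW.lc_one _ a))

theorem T1.m2_du (t : T1 pd pd') : t.m2 (DW.du Unit pd) = DW.cf Unit pd' (t.c⁻¹ : B'ˣ) *
    (DW.du Unit pd' - DW.cf Unit pd' (DW.lg pd' t.c) * DW.Eu Unit pd' + DW.cf Unit pd' t.l) :=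
  DW.map_du _

theorem T1.m2_wv (t : T1 pd pd') (x : D2 pd) : t.m2 ((wv pd).f x) = (wv pd').f (t.m2 x) :=
  AlgHom.congr_fun (DW.hom_ext (φ := t.m2.comp (wv pd).f) (ψ := (wv pd').f.comp t.m2)
    (fun z => by simp only [AlgHom.comp_apply, wv_cf, t.m2_cf])
    (fun a => by simp only [AlgHom.comp_apply, wv_y, t.m2_y, map_neg, map_mul, wv_cf, mul_neg])
    (fun a => by simp only [AlgHom.comp_apply, wv_d, t.m2_d, map_neg, map_mul, wv_cf, mul_neg])
    (by simp only [AlgHom.comp_apply, wv_du, t.m2_du, map_mul, map_add, map_sub, wv_cf, wv_Eu])) x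

/-- The functions on the curve. -/
def j1 (pd : Derivation ℂ B B) : B →ₐ[ℂ] D1 pd := DO.j _

/-- The vector field. -/
def p1 (pd : Derivation ℂ B B) : D1 pd := DO.p _ ()

theorem p1_j1 (z : B) : p1 pd * j1 pd z = j1 pd z * p1 pd + j1 pd (pd z) := DO.pj _ () z

theorem j1_j1 (z w : B) : j1 pd z * j1 pd w = j1 pd w * j1 pd z := by
  rw [← map_mul, mul_comm, map_mul]

/-- The universal property. -/
def lift1 (φ : B →ₐ[ℂ] E) (q : E) (h : ∀ z, q * φ z = φ z * q + φ (pd z)) : D1 pd →ₐ[ℂ] E :=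
  DO.lift φ (fun _ => q) (fun _ => h) fun _ _ => rfl

theorem lift1_j (φ : B →ₐ[ℂ] E) (q : E) (h : ∀ z, q * φ z = φ z * q + φ (pd z)) (z : B) :
    lift1 φ q h (j1 pd z) = φ z := DO.lift_j φ (fun _ => q) (fun _ => h) (fun _ _ => rfl) z

theorem lift1_p (φ : B →ₐ[ℂ] E) (q : E) (h : ∀ z, q * φ z = φ z * q + φ (pd z)) :
    lift1 φ q h (p1 pd) = q := DO.lift_p φ (fun _ => q) (fun _ => h) (fun _ _ => rfl) ()

theorem ext1 {φ ψ : D1 pd →ₐ[ℂ] E} (h1 : ∀ z, φ (j1 pd z) = ψ (j1 pd z))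
    (h2 : φ (p1 pd) = ψ (p1 pd)) : φ = ψ := DO.hom_ext h1 fun _ => h2

theorem ind1 {P : D1 pd → Prop} (h1 : ∀ z, P (j1 pd z)) (h2 : P (p1 pd))
    (add : ∀ x y, P x → P y → P (x + y)) (mul : ∀ x y, P x → P y → P (x * y)) (x : D1 pd) : P x :=
  DO.ind h1 (fun _ => h2) add mul x

theorem T1.rel1 (t : T1 pd pd') (z : B) :
    j1 pd' (t.c⁻¹ : B'ˣ) * (p1 pd' + j1 pd' t.l) * ((j1 pd').comp t.κ) z =
      ((j1 pd').comp t.κ) z * (j1 pd' (t.c⁻¹ : B'ˣ) * (p1 pd' + j1 pd' t.l)) +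
        ((j1 pd').comp t.κ) (pd z) := by
  simp only [AlgHom.comp_apply, mul_add, add_mul, mul_assoc, p1_j1, t.hκ]
  simp only [← mul_assoc, ← map_mul, Units.inv_mul, one_mul, mul_comm (t.κ z),
    mul_right_comm _ (t.κ z)]
  abel

/-- The map of the rings of differential operators on the curves. -/
def T1.m1 (t : T1 pd pd') : D1 pd →ₐ[ℂ] D1 pd' := lift1 _ _ t.rel1

theorem T1.m1_j (t : T1 pd pd') (z : B) : t.m1 (j1 pd z) = j1 pd' (t.κ z) := lift1_j _ _ t.rel1 z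

theorem T1.m1_p (t : T1 pd pd') :
    t.m1 (p1 pd) = j1 pd' (t.c⁻¹ : B'ˣ) * (p1 pd' + j1 pd' t.l) := lift1_p _ _ t.rel1

theorem ofAlg_mem (x : E) : x ∈ (DGA.ofAlg E).gr 0 := by
  change x ∈ (if (0 : ℤ) = 0 then ⊤ else ⊥ : Submodule ℂ E)
  simp

theorem ofAlg_zero {m : ℤ} (h : m ≠ 0) {x : E} (hx : x ∈ (DGA.ofAlg E).gr m) : x = 0 := by
  change x ∈ (if m = 0 then ⊤ else ⊥ : Submodule ℂ E) at hx
  simpa [h] using hx

/-- A homomorphism of algebras in degree `0`. -/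
def ofAlgH {E' : Type} [Ring E'] [Algebra ℂ E'] (φ : E →ₐ[ℂ] E') :
    AHom (DGA.ofAlg E) (DGA.ofAlg E') :=
  ⟨φ, fun _ => map_zero φ, fun m a ha => by
    by_cases h : m = 0
    · exact h ▸ ofAlg_mem (E := E') _
    · have h1 : φ a = 0 := (congrArg φ (ofAlg_zero (E := E) h ha)).trans (map_zero φ)
      exact (congrArg (· ∈ (DGA.ofAlg E').gr m) h1).mpr (zero_mem _)⟩

/-! ### The Weyl algebra in one variable -/

/-- The Weyl algebra. -/
abbrev Dt : Type := P286EI.DO fun a : Unit => (pderiv a : Derivation ℂ (MvPolynomial Unit ℂ) _)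

/-- The coordinate. -/
def Dt.t : Dt := P286EI.DO.of _ (X ())

/-- The derivative. -/
def Dt.d : Dt := P286EI.DO.D _ ()

theorem Dt.d_t : Dt.d * Dt.t = Dt.t * Dt.d + 1 :=
  (P286EI.DO.D_of _ _).trans (by rw [pderiv_X_self, map_one]; rfl)

theorem ev_h (T : E) (a : Unit) (z : ℂ) : T * Algebra.ofId ℂ E z = Algebra.ofId ℂ E z * T :=
  (Algebra.commutes z _).symm

/-- Evaluation of a polynomial. -/
def ev1 (T : E) : MvPolynomial Unit ℂ →ₐ[ℂ] E :=
  P286EI.cl (Algebra.ofId ℂ E) (fun _ => T) (fun _ _ => rfl) (ev_h T)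

theorem ev1_X (T : E) (a : Unit) : ev1 T (X a) = T :=
  P286EI.cl_X (Algebra.ofId ℂ E) (fun _ => T) (fun _ _ => rfl) (ev_h T) a

theorem dt_rel (T Q : E) (h : Q * T = T * Q + 1) (k : Unit) (p : MvPolynomial Unit ℂ) :
    Q * ev1 T p = ev1 T p * Q + ev1 T (pderiv k p) :=
  P286EI.br_ind _ _ _ (fun z => by
    rw [pderiv_C, map_zero, add_zero, ← algebraMap_eq, AlgHom.commutes]
    exact (Algebra.commutes z _).symm)
    (fun a => by rw [ev1_X, pderiv_X_self, map_one, h]) p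

/-- The universal property. -/
def Dt.lift (T Q : E) (h : Q * T = T * Q + 1) : Dt →ₐ[ℂ] E :=
  P286EI.DO.lift (ev1 T) (fun _ => Q) (fun _ _ => rfl) (dt_rel T Q h)

theorem Dt.lift_t (T Q : E) (h : Q * T = T * Q + 1) : Dt.lift T Q h Dt.t = T :=
  (P286EI.DO.lift_of (ev1 T) (fun _ => Q) (fun _ _ => rfl) (dt_rel T Q h) _).trans (ev1_X T _)

theorem Dt.lift_d (T Q : E) (h : Q * T = T * Q + 1) : Dt.lift T Q h Dt.d = Q :=
  P286EI.DO.lift_D (ev1 T) (fun _ => Q) (fun _ _ => rfl) (dt_rel T Q h) _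

theorem Dt.hom_ext {φ ψ : Dt →ₐ[ℂ] E} (h1 : φ Dt.t = ψ Dt.t) (h2 : φ Dt.d = ψ Dt.d) : φ = ψ :=
  P286EI.DO.hom_ext (AlgHom.congr_fun (MvPolynomial.algHom_ext
    (f := φ.comp (P286EI.DO.of _)) (g := ψ.comp (P286EI.DO.of _)) fun _ => h1)) fun _ => h2

theorem Dt.ind {P : Dt → Prop} (h0 : ∀ c, P (algebraMap ℂ Dt c)) (h1 : P Dt.t) (h2 : P Dt.d)
    (add : ∀ x y, P x → P y → P (x + y)) (mul : ∀ x y, P x → P y → P (x * y)) (x : Dt) : P x := by
  refine P286EI.DO.ind (fun p => ?_) (fun _ => h2) add mul x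
  induction p using MvPolynomial.induction_on with
  | C z => rw [← algebraMap_eq, AlgHom.commutes]; exact h0 z
  | add p q hp hq => rw [map_add]; exact add _ _ hp hq
  | mul_X p a hp => rw [map_mul]; exact mul _ _ hp h1

theorem rel0 : -Dt.d * -Dt.t = -Dt.t * -Dt.d + 1 := by rw [neg_mul_neg, neg_mul_neg, Dt.d_t]

/-- The involution `t ↦ -t`. -/
def w0 : Ivl Dt where
  f := Dt.lift (-Dt.t) (-Dt.d) rel0
  ff := AlgHom.congr_fun (Dt.hom_ext (φ := (Dt.lift _ _ rel0).comp (Dt.lift _ _ rel0))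
    (ψ := AlgHom.id ℂ _) (by simp [Dt.lift_t]) (by simp [Dt.lift_d]))

theorem w0_t : w0.f Dt.t = -Dt.t := Dt.lift_t _ _ rel0

theorem w0_d : w0.f Dt.d = -Dt.d := Dt.lift_d _ _ rel0

end Alg

/-! ### The diagrams -/

variable {I : Type} [SmallCategory I] {D : CD I}

/-- A twist. -/
structure Coc (V : VF D) where
  l : ∀ {i j : I}, (i ⟶ j) → D.C j
  l_id : ∀ i, l (𝟙 i) = 0
  l_comp : ∀ {i j k : I} (α : i ⟶ j) (β : j ⟶ k), l (α ≫ β) = D.c β * D.κ β (l α) + l β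

variable (V : VF D)

theorem lc_id (i : I) : V.lc (𝟙 i) = 0 :=
  V.lc_zero _ (by rw [D.c_id, Derivation.map_one_eq_zero])

/-- The twist `lam r'/r + k c'/c`. -/
def cq (lam k : ℂ) : Coc V where
  l α := lam • V.lr α + k • V.lc α
  l_id i := by rw [V.lr_one _ (D.r_id i), lc_id, smul_zero, smul_zero, add_zero]
  l_comp α β := by
    simp only [V.lr_comp, V.lc_comp, map_add, map_smul, smul_add, mul_add, mul_smul_comm]
    abel

theorem cq_l (lam k : ℂ) {i j : I} (α : i ⟶ j) :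
    (cq V lam k).l α = lam • V.lr α + k • V.lc α := rfl

theorem cq_lz (lam : ℂ) (k : ℤ) {i j : I} (α : i ⟶ j) : (cq V lam k).l α = V.lz lam k α := by
  rw [cq_l, VF.lz, Int.cast_smul_eq_zsmul]

variable {V} (L : Coc V)

/-- The unit `c`. -/
def cu (D : CD I) {i j : I} (α : i ⟶ j) : (D.C j)ˣ := (D.c_unit α).unit

theorem cu_val {i j : I} (α : i ⟶ j) : (cu D α : D.C j) = D.c α := rfl

theorem lg_cu {i j : I} (α : i ⟶ j) : DW.lg (V.pd j) (cu D α) = V.lc α := rfl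

theorem cu_id (i : I) : cu D (𝟙 i) = 1 := Units.ext (D.c_id i)

theorem cu_comp {i j k : I} (α : i ⟶ j) (β : j ⟶ k) :
    cu D (α ≫ β) = Units.map (D.κ β : D.C j →* D.C k) (cu D α) * cu D β :=
  Units.ext (D.c_comp α β)

theorem cu_comp_inv {i j k : I} (α : i ⟶ j) (β : j ⟶ k) :
    (((cu D (α ≫ β))⁻¹ : (D.C k)ˣ) : D.C k) =
      D.κ β ((cu D α)⁻¹ : (D.C j)ˣ) * ((cu D β)⁻¹ : (D.C k)ˣ) := by
  rw [cu_comp, mul_inv, Units.val_mul]; rfl

/-- The change of coordinates. -/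
def Coc.t {i j : I} (α : i ⟶ j) : T1 (V.pd i) (V.pd j) := ⟨D.κ α, cu D α, L.l α, V.pd_κ α⟩

theorem Coc.m2_id (i : I) : (L.t (𝟙 i)).m2 = AlgHom.id ℂ _ :=
  DW.map_eq_id _ (D.κ_id i) (cu_id i) rfl (L.l_id i)

theorem Coc.m2_comp {i j k : I} (α : i ⟶ j) (β : j ⟶ k) :
    (L.t β).m2.comp (L.t α).m2 = (L.t (α ≫ β)).m2 :=
  DW.map_map _ _ _ (D.κ_comp α β) (D.c_comp α β)
    (((Matrix.mul_one _).trans (Matrix.map_one _ (map_zero _) (map_one _))).symm) (L.l_comp α β)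

theorem Coc.m1_id (i : I) : (L.t (𝟙 i)).m1 = AlgHom.id ℂ _ :=
  ext1 (fun z => by rw [T1.m1_j]; exact congrArg _ (D.κ_id i z)) (by
    rw [T1.m1_p]
    simp [Coc.t, cu_id, L.l_id])

theorem Coc.m1_comp {i j k : I} (α : i ⟶ j) (β : j ⟶ k) :
    (L.t β).m1.comp (L.t α).m1 = (L.t (α ≫ β)).m1 :=
  ext1 (fun z => by
    rw [AlgHom.comp_apply, T1.m1_j, T1.m1_j, T1.m1_j]; exact congrArg _ (D.κ_comp α β z).symm) (by
      have e := (cu D β).inv_mul
      rw [cu_val] at e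
      rw [AlgHom.comp_apply, T1.m1_p, T1.m1_p, map_mul, map_add, T1.m1_j, T1.m1_j, T1.m1_p]
      simp only [Coc.t, cu_comp_inv, L.l_comp]
      simp only [mul_add, ← mul_assoc, ← map_mul (j1 (V.pd k)), add_assoc, ← map_add (j1 (V.pd k))]
      congr 2
      linear_combination (-(D.κ β ((cu D α)⁻¹ : (D.C j)ˣ) * D.κ β (L.l α))) * e)

/-- The diagram `D(C × 𝔸¹)[ε] ⋊ W`. -/
def DT : DD I where
  A i := Ext4 (wv (V.pd i))
  τ α := Ext4.map (L.t α).m2 (L.t α).m2_wv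
  τ_id i a := have h := AlgHom.congr_fun (L.m2_id i)
    E4.ext (h _) (h _) (h _) (h _)
  τ_comp α β a := have h := AlgHom.congr_fun (L.m2_comp α β).symm
    E4.ext (h _) (h _) (h _) (h _)

theorem DT_io {i j : I} (α : i ⟶ j) (x : D2 (V.pd i)) :
    ((DT L).τ α).f (E4.io _ x) = E4.io (wv (V.pd j)) ((L.t α).m2 x) :=
  E4.map_io _ (L.t α).m2_wv x

theorem DT_w {i j : I} (α : i ⟶ j) : ((DT L).τ α).f (E4.w _) = E4.w (wv (V.pd j)) :=
  E4.map_w _ (L.t α).m2_wv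

theorem DT_ep {i j : I} (α : i ⟶ j) : ((DT L).τ α).f (E4.ep _) = E4.ep (wv (V.pd j)) :=
  E4.map_ep _ (L.t α).m2_wv

/-- The equation `t² - f`. -/
def FT (V : VF D) (i : I) : D2 (V.pd i) := DW.y (V.pd i) () ^ 2 - DW.cf Unit (V.pd i) (D.f i)

theorem wv_FT (i : I) : (wv (V.pd i)).f (FT V i) = FT V i := by
  rw [FT, map_sub, map_pow, wv_y, wv_cf, neg_sq]

theorem FT_cf (i : I) (z : D.C i) :
    FT V i * DW.cf Unit (V.pd i) z = DW.cf Unit (V.pd i) z * FT V i := by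
  rw [FT, sub_mul, mul_sub, DW.cf_cf, sq, mul_assoc, DW.y_cf, ← mul_assoc, DW.y_cf, mul_assoc]

theorem m2_FT {i j : I} (α : i ⟶ j) :
    (L.t α).m2 (FT V i) = FT V j * DW.cf Unit (V.pd j) (D.c α ^ 2) := by
  rw [FT_cf, FT, FT, map_sub, map_pow, T1.m2_y, T1.m2_cf, mul_sub, ← map_mul]
  change (DW.cf Unit (V.pd j) (D.c α) * _) ^ 2 - DW.cf Unit (V.pd j) (D.κ α (D.f i)) = _
  rw [D.κ_f, map_pow, Commute.mul_pow (DW.y_cf _ _).symm]

/-- The functions on the curve. -/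
def cT (V : VF D) (i : I) : D.C i →ₐ[ℂ] E4 (wv (V.pd i)) := (E4.io _).comp (DW.cf Unit (V.pd i))

theorem cT_apply (i : I) (z : D.C i) : cT V i z = E4.io _ (DW.cf Unit (V.pd i) z) := rfl

theorem DT_cT {i j : I} (α : i ⟶ j) (z : D.C i) :
    ((DT L).τ α).f (cT V i z) = cT V j (D.κ α z) :=
  (DT_io L α _).trans (congrArg _ (T1.m2_cf _ z))

/-- The twisting data. -/
def tdT : TD (DT L) where
  F i := ⟨E4.io (wv (V.pd i)) (FT V i), E4.io_mem _, rfl⟩
  u {_ j} α := Units.map (cT V j : D.C j →* E4 (wv (V.pd j))) (cu D α ^ 2)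
  gr _ := E4.io_mem _
  gr' _ := E4.io_mem _
  d _ := rfl
  u_id i := by rw [cu_id, one_pow, map_one]; rfl
  u_comp {i j k} α β := by
    refine Eq.trans ?_ (congrArg (cT V k (D.c β ^ 2) * ·) (DT_cT L β (D.c α ^ 2))).symm
    change cT V k (D.c (α ≫ β) ^ 2) = _
    rw [← map_mul, D.c_comp, map_pow (D.κ β), mul_pow, mul_comm]
  τ_F α := (DT_io L α _).trans ((congrArg _ (m2_FT L α)).trans (map_mul _ _ _))

theorem tdT_F (i : I) : ((tdT L).F i).x = E4.io (wv (V.pd i)) (FT V i) := rfl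

theorem tdT_u {i j : I} (α : i ⟶ j) : ((tdT L).u α).1 = cT V j (D.c α ^ 2) := rfl

/-- The diagram `D(C)`. -/
def DC1 : DD I where
  A i := DGA.ofAlg (D1 (V.pd i))
  τ α := ofAlgH (L.t α).m1
  τ_id i a := AlgHom.congr_fun (L.m1_id i) a
  τ_comp α β a := (AlgHom.congr_fun (L.m1_comp α β) a).symm

theorem DC1_τ {i j : I} (α : i ⟶ j) (x : D1 (V.pd i)) : ((DC1 L).τ α).f x = (L.t α).m1 x := rfl

/-- The functions on the curve. -/
def c1 (V : VF D) (i : I) : D.C i →ₐ[ℂ] D1 (V.pd i) := j1 _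

theorem DC1_c1 {i j : I} (α : i ⟶ j) (z : D.C i) :
    ((DC1 L).τ α).f (c1 V i z) = c1 V j (D.κ α z) := T1.m1_j _ z

/-- The twisting data. -/
def td1 : TD (DC1 L) where
  F i := ⟨c1 V i (-D.f i), ofAlg_mem (E := D1 (V.pd i)) _, rfl⟩
  u {_ j} α := Units.map (c1 V j : D.C j →* D1 (V.pd j)) (cu D α ^ 2)
  gr {_ j} _ := ofAlg_mem (E := D1 (V.pd j)) _
  gr' {_ j} _ := ofAlg_mem (E := D1 (V.pd j)) _
  d _ := rfl
  u_id i := by rw [cu_id, one_pow, map_one]; rfl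
  u_comp {i j k} α β := by
    refine Eq.trans ?_ (congrArg (c1 V k (D.c β ^ 2) * ·) (DC1_c1 L β (D.c α ^ 2))).symm
    change c1 V k (D.c (α ≫ β) ^ 2) = _
    rw [← map_mul, D.c_comp, map_pow (D.κ β), mul_pow, mul_comm]
  τ_F {i j} α := by
    refine (DC1_c1 L α _).trans ?_
    change _ = c1 V j (-D.f j) * c1 V j (D.c α ^ 2)
    rw [← map_mul, map_neg, D.κ_f, neg_mul, mul_comm]

theorem td1_F (i : I) : ((td1 L).F i).x = c1 V i (-D.f i) := rfl

theorem td1_u {i j : I} (α : i ⟶ j) : ((td1 L).u α).1 = c1 V j (D.c α ^ 2) := rfl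

/-- The base rings. -/
abbrev rd (D : CD I) (sm : ∀ i, Algebra.Smooth ℂ (D.C i)) : RD I :=
  @RD.mk I _ D.C D.cr D.alg sm D.κ

theorem rd_eq (xd : XD D) : rd D xd.sm = xd.rd := rfl

variable (sm : ∀ i, Algebra.Smooth ℂ (D.C i))

/-- The base. -/
def baseT : Base (DT L) (rd D sm) := ⟨cT V, fun _ _ => E4.io_mem _, fun _ _ => rfl, DT_cT L⟩

/-- The base. -/
def base1 : Base (DC1 L) (rd D sm) :=
  ⟨c1 V, fun i _ => ofAlg_mem (E := D1 (V.pd i)) _, fun _ _ => rfl, DC1_c1 L⟩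

/-- The base of the twisted diagram. -/
def bT : Base (Tw (tdT L)) (rd D sm) := (baseT L sm).tw (tdT L)
  (fun i z => (map_mul (E4.io _) _ _).symm.trans ((congrArg _ (FT_cf i z)).trans (map_mul _ _ _)))
  fun {_ j} α z => (map_mul (cT V j) _ _).symm.trans
    ((congrArg _ (mul_comm _ _)).trans (map_mul _ _ _))

/-- The base of the twisted diagram. -/
def b1 : Base (Tw (td1 L)) (rd D sm) := (base1 L sm).tw (td1 L)
  (fun i z => j1_j1 _ _) fun _ _ => j1_j1 _ _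

end

end Vale.Agent.P286E99
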