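import Vale.Agent.P286E99.B0

/-!
# `D(C) ⊗ D(𝔸¹)[ε] ⋊ W = D(C × 𝔸¹)[ε] ⋊ W`
-/

set_option linter.all false

namespace Vale.Agent.P286E99

open TensorProduct Vale.Agent.P286EK Vale.Agent.P286E48 Vale.Agent.P286.H847
open Vale.Agent.P286EI (DW)
open Vale.Agent.P286EX (Ivl E4 Ext4)

noncomputable section

variable {B : Type} [CommRing B] [Algebra ℂ B] (pd : Derivation ℂ B B)

/-- The differential operators on a curve. -/
abbrev D9 : Type := P286EI.DO fun _ : Unit => pd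

/-- The functions on the curve. -/
def j9 : B →ₐ[ℂ] D9 pd := P286EI.DO.of _

/-- The vector field. -/
def p9 : D9 pd := P286EI.DO.D _ ()

section

variable {pd} {E : Type} [Ring E] [Algebra ℂ E]

theorem p9_j9 (z : B) : p9 pd * j9 pd z = j9 pd z * p9 pd + j9 pd (pd z) := P286EI.DO.D_of () z

/-- The universal property. -/
def lift9 (φ : B →ₐ[ℂ] E) (q : E) (h : ∀ z, q * φ z = φ z * q + φ (pd z)) : D9 pd →ₐ[ℂ] E :=
  P286EI.DO.lift φ (fun _ => q) (fun _ _ => rfl) fun _ => h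

theorem lift9_j (φ : B →ₐ[ℂ] E) (q : E) (h : ∀ z, q * φ z = φ z * q + φ (pd z)) (z : B) :
    lift9 φ q h (j9 pd z) = φ z := P286EI.DO.lift_of φ (fun _ => q) (fun _ _ => rfl) (fun _ => h) z

theorem lift9_p (φ : B →ₐ[ℂ] E) (q : E) (h : ∀ z, q * φ z = φ z * q + φ (pd z)) :
    lift9 φ q h (p9 pd) = q := P286EI.DO.lift_D φ (fun _ => q) (fun _ _ => rfl) (fun _ => h) ()

theorem ext9 {φ ψ : D9 pd →ₐ[ℂ] E} (h1 : ∀ z, φ (j9 pd z) = ψ (j9 pd z))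
    (h2 : φ (p9 pd) = ψ (p9 pd)) : φ = ψ := P286EI.DO.hom_ext h1 fun _ => h2

theorem ind9 {P : D9 pd → Prop} (h1 : ∀ z, P (j9 pd z)) (h2 : P (p9 pd))
    (add : ∀ x y, P x → P y → P (x + y)) (mul : ∀ x y, P x → P y → P (x * y)) (x : D9 pd) : P x :=
  P286EI.DO.ind h1 (fun _ => h2) add mul x

end

/-- The comparison of the two models. -/
def χ : D1 pd →ₐ[ℂ] D9 pd := lift1 (j9 pd) (p9 pd) p9_j9

/-- The comparison of the two models. -/
def χ' : D9 pd →ₐ[ℂ] D1 pd := lift9 (j1 pd) (p1 pd) p1_j1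

theorem χ_j (z : B) : χ pd (j1 pd z) = j9 pd z := lift1_j _ _ p9_j9 z

theorem χ_p : χ pd (p1 pd) = p9 pd := lift1_p _ _ p9_j9

theorem χ'_j (z : B) : χ' pd (j9 pd z) = j1 pd z := lift9_j _ _ p1_j1 z

theorem χ'_p : χ' pd (p9 pd) = p1 pd := lift9_p _ _ p1_j1

theorem χ'_χ (x : D1 pd) : χ' pd (χ pd x) = x :=
  AlgHom.congr_fun (ext1 (φ := (χ' pd).comp (χ pd)) (ψ := AlgHom.id ℂ _)
    (fun z => by rw [AlgHom.comp_apply, χ_j, χ'_j]; rfl)
    (by rw [AlgHom.comp_apply, χ_p, χ'_p]; rfl)) x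

theorem χ_χ' (x : D9 pd) : χ pd (χ' pd x) = x :=
  AlgHom.congr_fun (ext9 (φ := (χ pd).comp (χ' pd)) (ψ := AlgHom.id ℂ _)
    (fun z => by rw [AlgHom.comp_apply, χ'_j, χ_j]; rfl)
    (by rw [AlgHom.comp_apply, χ'_p, χ_p]; rfl)) x

/-- The tensor product. -/
abbrev TB : Type := D9 pd ⊗[ℂ] E4 w0

/-- The first factor. -/
abbrev iL : D9 pd →ₐ[ℂ] TB pd := Algebra.TensorProduct.includeLeft

/-- The second factor. -/
abbrev iR : E4 w0 →ₐ[ℂ] TB pd := Algebra.TensorProduct.includeRight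

theorem iR_iL (x : D9 pd) (y : E4 w0) : iR pd y * iL pd x = iL pd x * iR pd y := by
  simp [Algebra.TensorProduct.tmul_mul_tmul]

theorem relψ : DW.Rel pd ((iL pd).comp (j9 pd)) (fun _ : Unit => iR pd (E4.io w0 Dt.t))
    (fun _ : Unit => iR pd (E4.io w0 Dt.d)) (iL pd (p9 pd)) :=
  ⟨fun _ _ => rfl, fun _ _ => iR_iL pd _ _, fun _ _ => rfl, fun _ _ => iR_iL pd _ _,
    fun a b => by
      rw [if_pos rfl, ← map_mul, ← map_mul, Dt.d_t, map_add, map_add, map_mul, map_mul, map_one,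
        map_one],
    fun z => by simp only [AlgHom.comp_apply, ← map_mul, ← map_add, p9_j9],
    fun _ => (iR_iL pd _ _).symm, fun _ => (iR_iL pd _ _).symm⟩

/-- The map on the differential operators. -/
def ψ0 : D2 pd →ₐ[ℂ] TB pd := DW.lift (relψ pd)

theorem ψ0_cf (z : B) : ψ0 pd (DW.cf Unit pd z) = iL pd (j9 pd z) := DW.lift_cf (relψ pd) z

theorem ψ0_y (a : Unit) : ψ0 pd (DW.y pd a) = iR pd (E4.io w0 Dt.t) := DW.lift_y (relψ pd) a

theorem ψ0_d (a : Unit) : ψ0 pd (DW.d pd a) = iR pd (E4.io w0 Dt.d) := DW.lift_d (relψ pd) a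

theorem ψ0_du : ψ0 pd (DW.du Unit pd) = iL pd (p9 pd) := DW.lift_du (relψ pd)

theorem relΨ : E4.Rel (wv pd) (ψ0 pd) (iR pd (E4.w w0)) (iR pd (E4.ep w0)) where
  ww := by rw [← map_mul, E4.w_w, map_one]
  pp := by rw [← map_mul, E4.ep_ep, map_zero]
  wp := by rw [← map_mul, E4.w_ep, map_neg, map_mul]
  wi x := by
    induction x using DW.ind with
    | h0 z => rw [wv_cf, ψ0_cf, iR_iL]
    | h1 a => rw [wv_y, map_neg, ψ0_y, ← map_mul, E4.w_io, w0_t, map_neg, map_mul, map_neg]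
    | h2 a => rw [wv_d, map_neg, ψ0_d, ← map_mul, E4.w_io, w0_d, map_neg, map_mul, map_neg]
    | h3 => rw [wv_du, ψ0_du, iR_iL]
    | add x y hx hy => rw [map_add, map_add, map_add, mul_add, add_mul, hx, hy]
    | mul x y hx hy => rw [map_mul, map_mul, map_mul, ← mul_assoc, hx, mul_assoc, hy, mul_assoc]
  pi x := by
    induction x using DW.ind with
    | h0 z => rw [ψ0_cf, iR_iL]
    | h1 a => rw [ψ0_y, ← map_mul, E4.ep_io, map_mul]
    | h2 a => rw [ψ0_d, ← map_mul, E4.ep_io, map_mul]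
    | h3 => rw [ψ0_du, iR_iL]
    | add x y hx hy => rw [map_add, mul_add, add_mul, hx, hy]
    | mul x y hx hy => rw [map_mul, ← mul_assoc, hx, mul_assoc, hy, mul_assoc]

/-- The map to the tensor product. -/
def Ψ : E4 (wv pd) →ₐ[ℂ] TB pd := E4.lift _ _ _ (relΨ pd)

theorem Ψ_io (x : D2 pd) : Ψ pd (E4.io _ x) = ψ0 pd x := E4.lift_io _ _ _ (relΨ pd) x

theorem Ψ_w : Ψ pd (E4.w _) = iR pd (E4.w w0) := E4.lift_w _ _ _ (relΨ pd)

theorem Ψ_ep : Ψ pd (E4.ep _) = iR pd (E4.ep w0) := E4.lift_ep _ _ _ (relΨ pd)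

theorem relt : DW.d pd () * DW.y pd () = DW.y pd () * DW.d pd () + 1 :=
  (DW.d_y () ()).trans (by rw [if_pos rfl])

/-- The operators on the line. -/
def φt : Dt →ₐ[ℂ] D2 pd := Dt.lift _ _ (relt pd)

theorem φt_t : φt pd Dt.t = DW.y pd () := Dt.lift_t _ _ (relt pd)

theorem φt_d : φt pd Dt.d = DW.d pd () := Dt.lift_d _ _ (relt pd)

theorem φt_w (x : Dt) : φt pd (w0.f x) = (wv pd).f (φt pd x) :=
  AlgHom.congr_fun (Dt.hom_ext (φ := (φt pd).comp w0.f) (ψ := (wv pd).f.comp (φt pd))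
    (by simp only [AlgHom.comp_apply, w0_t, map_neg, φt_t, wv_y])
    (by simp only [AlgHom.comp_apply, w0_d, map_neg, φt_d, wv_d])) x

/-- The operators on the curve. -/
def φc : D9 pd →ₐ[ℂ] D2 pd := lift9 (DW.cf Unit pd) (DW.du Unit pd) DW.du_cf

theorem φc_j (z : B) : φc pd (j9 pd z) = DW.cf Unit pd z := lift9_j _ _ DW.du_cf z

theorem φc_p : φc pd (p9 pd) = DW.du Unit pd := lift9_p _ _ DW.du_cf

theorem wv_φc (x : D9 pd) : (wv pd).f (φc pd x) = φc pd x :=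
  AlgHom.congr_fun (ext9 (φ := (wv pd).f.comp (φc pd)) (ψ := φc pd)
    (fun z => by simp only [AlgHom.comp_apply, φc_j, wv_cf])
    (by simp only [AlgHom.comp_apply, φc_p, wv_du])) x

theorem φc_φt (x : D9 pd) (y : Dt) : Commute (φc pd x) (φt pd y) := by
  induction x using ind9 with
  | add x x' hx hx' => rw [map_add]; exact hx.add_left hx'
  | mul x x' hx hx' => rw [map_mul]; exact hx.mul_left hx'
  | h1 z =>
    induction y using Dt.ind with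
    | h0 c => rw [AlgHom.commutes]; exact Algebra.commute_algebraMap_right c _
    | h1 => rw [φc_j, φt_t]; exact (DW.y_cf _ _).symm
    | h2 => rw [φc_j, φt_d]; exact (DW.d_cf _ _).symm
    | add y y' hy hy' => rw [map_add]; exact hy.add_right hy'
    | mul y y' hy hy' => rw [map_mul]; exact hy.mul_right hy'
  | h2 =>
    induction y using Dt.ind with
    | h0 c => rw [AlgHom.commutes]; exact Algebra.commute_algebraMap_right c _
    | h1 => rw [φc_p, φt_t]; exact DW.du_y _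
    | h2 => rw [φc_p, φt_d]; exact DW.du_d _
    | add y y' hy hy' => rw [map_add]; exact hy.add_right hy'
    | mul y y' hy hy' => rw [map_mul]; exact hy.mul_right hy'

/-- The second factor. -/
def φR : E4 w0 →ₐ[ℂ] E4 (wv pd) := E4.map (φt pd) (φt_w pd)

theorem φR_io (x : Dt) : φR pd (E4.io _ x) = E4.io _ (φt pd x) := E4.map_io _ (φt_w pd) x

theorem φR_w : φR pd (E4.w _) = E4.w _ := E4.map_w _ (φt_w pd)

theorem φR_ep : φR pd (E4.ep _) = E4.ep _ := E4.map_ep _ (φt_w pd)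

theorem φ_comm (x : D9 pd) (y : E4 w0) :
    Commute (((E4.io (wv pd)).comp (φc pd)) x) (φR pd y) := by
  rw [AlgHom.comp_apply]
  induction y using E4.ind with
  | hi y => rw [φR_io]; exact (φc_φt pd x y).map _
  | hw => rw [φR_w, Commute, SemiconjBy, E4.w_io, wv_φc]
  | he => rw [φR_ep, Commute, SemiconjBy, E4.ep_io]
  | add y y' hy hy' => rw [map_add]; exact hy.add_right hy'
  | mul y y' hy hy' => rw [map_mul]; exact hy.mul_right hy'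

/-- The inverse. -/
def Φ : TB pd →ₐ[ℂ] E4 (wv pd) :=
  Algebra.TensorProduct.lift ((E4.io (wv pd)).comp (φc pd)) (φR pd) (φ_comm pd)

theorem Φ_tmul (x : D9 pd) (y : E4 w0) : Φ pd (x ⊗ₜ[ℂ] y) = E4.io _ (φc pd x) * φR pd y :=
  Algebra.TensorProduct.lift_tmul _ _ _ x y

theorem Φ_iL (x : D9 pd) : Φ pd (iL pd x) = E4.io _ (φc pd x) :=
  (Φ_tmul pd x 1).trans (by rw [map_one, mul_one])

theorem Φ_iR (y : E4 w0) : Φ pd (iR pd y) = φR pd y :=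
  (Φ_tmul pd 1 y).trans (by rw [map_one, map_one, one_mul])

theorem e4_ext {E : Type} [Ring E] [Algebra ℂ E] {φ ψ : E4 (wv pd) →ₐ[ℂ] E}
    (h0 : ∀ z, φ (E4.io _ (DW.cf Unit pd z)) = ψ (E4.io _ (DW.cf Unit pd z)))
    (h1 : φ (E4.io _ (DW.y pd ())) = ψ (E4.io _ (DW.y pd ())))
    (h2 : φ (E4.io _ (DW.d pd ())) = ψ (E4.io _ (DW.d pd ())))
    (h3 : φ (E4.io _ (DW.du Unit pd)) = ψ (E4.io _ (DW.du Unit pd)))
    (hw : φ (E4.w _) = ψ (E4.w _)) (he : φ (E4.ep _) = ψ (E4.ep _)) : φ = ψ :=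
  E4.hom_ext (AlgHom.congr_fun (DW.hom_ext (φ := φ.comp (E4.io _)) (ψ := ψ.comp (E4.io _)) h0
    (fun _ => h1) (fun _ => h2) h3)) hw he

theorem Φ_Ψ (x : E4 (wv pd)) : Φ pd (Ψ pd x) = x :=
  AlgHom.congr_fun (e4_ext pd (φ := (Φ pd).comp (Ψ pd)) (ψ := AlgHom.id ℂ _)
    (fun z => by rw [AlgHom.comp_apply, Ψ_io, ψ0_cf, Φ_iL, φc_j]; rfl)
    (by rw [AlgHom.comp_apply, Ψ_io, ψ0_y, Φ_iR, φR_io, φt_t]; rfl)
    (by rw [AlgHom.comp_apply, Ψ_io, ψ0_d, Φ_iR, φR_io, φt_d]; rfl)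
    (by rw [AlgHom.comp_apply, Ψ_io, ψ0_du, Φ_iL, φc_p]; rfl)
    (by rw [AlgHom.comp_apply, Ψ_w, Φ_iR, φR_w]; rfl)
    (by rw [AlgHom.comp_apply, Ψ_ep, Φ_iR, φR_ep]; rfl)) x

theorem Ψ_φc (x : D9 pd) : Ψ pd (E4.io _ (φc pd x)) = iL pd x :=
  AlgHom.congr_fun (ext9 (φ := (Ψ pd).comp ((E4.io _).comp (φc pd))) (ψ := iL pd)
    (fun z => by simp only [AlgHom.comp_apply, φc_j, Ψ_io, ψ0_cf])
    (by simp only [AlgHom.comp_apply, φc_p, Ψ_io, ψ0_du])) x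

theorem Ψ_φR (y : E4 w0) : Ψ pd (φR pd y) = iR pd y :=
  AlgHom.congr_fun (E4.hom_ext (φ := (Ψ pd).comp (φR pd)) (ψ := iR pd)
    (AlgHom.congr_fun (Dt.hom_ext (φ := ((Ψ pd).comp (φR pd)).comp (E4.io _))
      (ψ := (iR pd).comp (E4.io _))
      (by simp only [AlgHom.comp_apply, φR_io, φt_t, Ψ_io, ψ0_y])
      (by simp only [AlgHom.comp_apply, φR_io, φt_d, Ψ_io, ψ0_d])))
    (by simp only [AlgHom.comp_apply, φR_w, Ψ_w])
    (by simp only [AlgHom.comp_apply, φR_ep, Ψ_ep])) y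

theorem Ψ_Φ (x : TB pd) : Ψ pd (Φ pd x) = x := by
  induction x using TensorProduct.induction_on with
  | zero => rw [map_zero, map_zero]
  | add x y hx hy => rw [map_add, map_add, hx, hy]
  | tmul x y =>
    rw [Φ_tmul, map_mul, Ψ_φc, Ψ_φR]
    simp [Algebra.TensorProduct.tmul_mul_tmul]

theorem ψ0_mem (x : D2 pd) : ψ0 pd x ∈ tg (D9 pd) (Ext4 w0) 0 := by
  induction x using DW.ind with
  | h0 z => rw [ψ0_cf]; exact tmul_tg (A := Ext4 w0) _ (Ext4 w0).one_gr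
  | h1 a => rw [ψ0_y]; exact tmul_tg (A := Ext4 w0) _ (E4.io_mem _)
  | h2 a => rw [ψ0_d]; exact tmul_tg (A := Ext4 w0) _ (E4.io_mem _)
  | h3 => rw [ψ0_du]; exact tmul_tg (A := Ext4 w0) _ (Ext4 w0).one_gr
  | add x y hx hy => rw [map_add]; exact add_mem hx hy
  | mul x y hx hy =>
    have h := (TA (D9 pd) (Ext4 w0)).mul_gr 0 0 _ _ hx hy
    rw [zero_add] at h
    rw [map_mul]; exact h

theorem Ψ_mem {m : ℤ} {x : E4 (wv pd)} (h : x ∈ E4.gr (wv pd) m) :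
    Ψ pd x ∈ tg (D9 pd) (Ext4 w0) m := by
  have hw : iR pd (E4.w w0) ∈ tg (D9 pd) (Ext4 w0) 0 := tmul_tg (A := Ext4 w0) _ E4.w_mem
  have he : iR pd (E4.ep w0) ∈ tg (D9 pd) (Ext4 w0) (-1) := tmul_tg (A := Ext4 w0) _ E4.ep_mem
  have hm : ∀ (i j : ℤ) (a b : TB pd), a ∈ tg (D9 pd) (Ext4 w0) i → b ∈ tg (D9 pd) (Ext4 w0) j →
      a * b ∈ tg (D9 pd) (Ext4 w0) (i + j) := (TA (D9 pd) (Ext4 w0)).mul_gr
  have h0 : ∀ (j : ℤ) (a : D2 pd) (b : TB pd), b ∈ tg (D9 pd) (Ext4 w0) j →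
      ψ0 pd a * b ∈ tg (D9 pd) (Ext4 w0) j := fun j a b hb => by
    have h := hm 0 j _ _ (ψ0_mem pd a) hb
    rwa [zero_add] at h
  have h3 := hm (-1) 0 _ _ he hw
  rw [add_zero] at h3
  rw [Ψ, E4.lift_apply]
  rcases E4.gr_cases h with ⟨rfl, h1, h2⟩ | ⟨rfl, h1, h2⟩ | rfl
  · rw [h1, h2, map_zero, zero_mul, zero_mul, add_zero, add_zero]
    exact add_mem (ψ0_mem pd _) (h0 _ _ _ hw)
  · rw [h1, h2, map_zero, zero_mul, zero_add, zero_add]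
    exact add_mem (h0 _ _ _ he) (h0 _ _ _ h3)
  · simp only [E4.zero_a, E4.zero_b, E4.zero_c, E4.zero_e, map_zero, zero_mul, add_zero]
    exact zero_mem _

theorem Φ_mem {m : ℤ} {x : TB pd} (h : x ∈ tg (D9 pd) (Ext4 w0) m) : Φ pd x ∈ E4.gr (wv pd) m :=
  tg_ind (A := Ext4 w0) (Q := fun x : TB pd => Φ pd x ∈ E4.gr (wv pd) m)
    ((map_zero (Φ pd)).symm ▸ zero_mem _)
    (fun r a ha => by
      have h1 := (Ext4 (wv pd)).mul_gr 0 m _ _ (E4.io_mem (φc pd r))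
        ((Ext4.map (φt pd) (φt_w pd)).deg m a ha)
      rw [zero_add] at h1
      exact (Φ_tmul pd r a).symm ▸ h1)
    (fun x y hx hy => (map_add (Φ pd) x y).symm ▸ add_mem hx hy) h

theorem d_TB (x : TB pd) : (TA (D9 pd) (Ext4 w0)).d x = 0 :=
  LinearMap.congr_fun (LinearMap.lTensor_zero (D9 pd)) x

/-- The isomorphism of DG algebras. -/
def ΨH : AHom (Ext4 (wv pd)) (TA (D9 pd) (Ext4 w0)) :=
  ⟨Ψ pd, fun a => (map_zero (Ψ pd)).trans (d_TB pd _).symm, fun _ _ h => Ψ_mem pd h⟩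

theorem qis_Ψ : GD.Qis (ΨH pd).n.hom :=
  qis_of_bij _ (fun _ x _ e => (Φ_Ψ pd x).symm.trans ((congrArg (Φ pd) e).trans (map_zero _)))
    fun _ y hy => ⟨Φ pd y, Φ_mem pd hy, Ψ_Φ pd y⟩

/-! ### Dimension one -/

variable {R S : Type} [Ring R] [Algebra ℂ R] [Ring S] [Algebra ℂ S]

theorem d_T1 (x : R ⊗[ℂ] ℂ) : (TA R (DGA.ofAlg ℂ)).d x = 0 :=
  LinearMap.congr_fun (LinearMap.lTensor_zero R) x

/-- The homomorphism `S → R ⊗ ℂ`. -/
def u0 (φ : S →ₐ[ℂ] R) : S →ₐ[ℂ] R ⊗[ℂ] ℂ :=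
  (Algebra.TensorProduct.includeLeft : R →ₐ[ℂ] R ⊗[ℂ] ℂ).comp φ

theorem u0_apply (φ : S →ₐ[ℂ] R) (x : S) : u0 φ x = φ x ⊗ₜ[ℂ] (1 : ℂ) := rfl

/-- The homomorphism `S → R ⊗ ℂ`. -/
def uH (φ : S →ₐ[ℂ] R) : AHom (DGA.ofAlg S) (TA R (DGA.ofAlg ℂ)) :=
  ⟨u0 φ, fun a => (map_zero (u0 φ)).trans (d_T1 _).symm, fun m a ha => by
    by_cases h : m = 0
    · subst h
      exact tmul_tg (A := DGA.ofAlg ℂ) _ (DGA.ofAlg ℂ).one_gr
    · have h1 : (a : S) = 0 := ofAlg_zero (E := S) h ha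
      subst h1
      exact (map_zero (u0 φ)).symm ▸ zero_mem _⟩

theorem qis_uH (φ : S →ₐ[ℂ] R) (hφ : Function.Bijective φ) : GD.Qis (uH φ).n.hom :=
  qis_of_bij _ (fun _ x _ e => by
      have h := congrArg (TensorProduct.rid ℂ R) e
      exact hφ.1 ((((TensorProduct.rid_tmul (φ x) 1).trans (one_smul _ _)).symm.trans
        (h.trans (map_zero _))).trans (map_zero φ).symm))
    fun m y hy => tg_ind (A := DGA.ofAlg ℂ)
      (Q := fun y : R ⊗[ℂ] ℂ => ∃ x ∈ (DGA.ofAlg S).gr m, (uH φ).f x = y)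
      ⟨0, zero_mem _, map_zero _⟩
      (fun r (a : ℂ) ha => by
        by_cases h : m = 0
        · subst h
          obtain ⟨x, hx⟩ := hφ.2 (a • r)
          exact ⟨x, ofAlg_mem (E := S) _, (congrArg (· ⊗ₜ[ℂ] (1 : ℂ)) hx).trans
            ((smul_tmul a r (1 : ℂ)).trans (congrArg (r ⊗ₜ[ℂ] ·) (mul_one a)))⟩
        · have h1 : a = 0 := ofAlg_zero (E := ℂ) h ha
          subst h1
          exact ⟨0, zero_mem _, (map_zero _).trans (tmul_zero _ r).symm⟩)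
      (fun _ _ ⟨a, ha, e⟩ ⟨b, hb, e'⟩ => ⟨a + b, add_mem ha hb, by rw [map_add, e, e']⟩) hy

end

end Vale.Agent.P286E99
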